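import Vale.Agent.P281.H125.RC.Thin
import Vale.Agent.P281.H383.Gen.Ext

/-!
# P281, project RADC (helper125), G-CONN: the slices of a small subset of `ℂ^a × H`
-/

open Set Filter Metric Vale.Agent.P281 Vale.Agent.P281.J Vale.Agent.P281.H713
open Vale.Agent.P281.H64.Thin (IsThinSet)
open Vale.Agent.P281.H64.Gen (IsSmallSet)
open Vale.Agent.P281.H64 (Cm)
open Vale.Agent.P281.H150.Gen
open scoped Topology ContDiff Manifold

noncomputable section

namespace Vale.Agent.P281.H125.RC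

variable {a h : ℕ} {H : Type} [TopologicalSpace H] [ChartedSpace (Cm h) H]

variable (h) in
/-- `A ⊆ ℂ^a × H` is locally contained in hypersurfaces. -/
def LocA (A : Set (Cm a × H)) : Prop :=
  ∀ q ∈ A, ∃ g : Cm a × H → ℂ, ContMDiffAt (𝓘(ℂ, Cm a).prod 𝓘(ℂ, Cm h)) 𝓘(ℂ, ℂ) ω g q ∧
    (¬ ∀ᶠ z in 𝓝 q, g z = 0) ∧ ∀ᶠ z in 𝓝 q, z ∈ A → g z = 0

variable (h) in
/-- A local equation of the slice. -/
def LEq (A : Set (Cm a × H)) (q : Cm a × H) : Prop :=
  ∃ f : H → ℂ, HolAt (Cm h) f q.2 ∧ (¬ ∀ᶠ x in 𝓝 q.2, f x = 0) ∧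
    ∀ᶠ x in 𝓝 q.2, (q.1, x) ∈ A → f x = 0

variable [IsManifold 𝓘(ℂ, Cm h) ω H]

/-- **Slices of a closed set, locally contained in hypersurfaces.** -/
theorem thin_slices [SecondCountableTopology H] {A : Set (Cm a × H)} (hA : IsClosed A)
    (hloc : LocA h A) : ∃ T : Set (Cm a), SThin (Cm a) T ∧
      ∀ t, t ∉ T → IsThinSet (Cm h) {x : H | (t, x) ∈ A} := by
  refine ⟨Prod.fst '' {q : Cm a × H | q ∈ A ∧ ¬ LEq h A q}, ?_, ?_⟩
  · refine SThin.image_of_local fun q₀ hq₀ => ?_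
    obtain ⟨g, hg, hne, hev⟩ := hloc q₀ hq₀.1
    set e := chartAt (Cm h) q₀.2 with he
    have hes : q₀.2 ∈ e.source := mem_chart_source _ _
    have het : e q₀.2 ∈ e.target := e.map_source hes
    set gg : Cm a × Cm h → ℂ := fun r => g (r.1, e.symm r.2) with hgg
    have h1 : ContMDiffAt 𝓘(ℂ, Cm a × Cm h) (𝓘(ℂ, Cm a).prod 𝓘(ℂ, Cm h)) ω
        (fun r : Cm a × Cm h => (r.1, e.symm r.2)) (q₀.1, e q₀.2) := by
      refine ContMDiffAt.prodMk (contDiff_fst.contMDiff _) ?_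
      have h2 : ContMDiffAt 𝓘(ℂ, Cm h) 𝓘(ℂ, Cm h) ω e.symm (e q₀.2) :=
        contMDiffAt_symm_of_mem_maximalAtlas (IsManifold.chart_mem_maximalAtlas _) het
      exact ContMDiffAt.comp (q₀.1, e q₀.2) (g := e.symm) (f := fun r : Cm a × Cm h => r.2) h2
        (contDiff_snd.contMDiff _)
    have h3 : ContMDiffAt 𝓘(ℂ, Cm a × Cm h) 𝓘(ℂ, ℂ) ω gg (q₀.1, e q₀.2) := by
      refine ContMDiffAt.comp (q₀.1, e q₀.2) (g := g)
        (f := fun r : Cm a × Cm h => (r.1, e.symm r.2)) ?_ h1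
      have h4 : ((q₀.1, e q₀.2).1, e.symm (q₀.1, e q₀.2).2) = q₀ := by
        rw [e.left_inv hes]
      rw [h4]
      exact hg
    have h5 : AnalyticAt ℂ gg (q₀.1, e q₀.2) := (contMDiffAt_iff_contDiffAt.1 h3).analyticAt
    have hec : ∀ {q : Cm a × H}, q.2 ∈ e.source →
        ContinuousAt (fun z : Cm a × H => (z.1, e z.2)) q := fun {q} hq =>
      continuous_fst.continuousAt.prodMk
        (ContinuousAt.comp (g := e) (f := Prod.snd) (e.continuousAt hq) continuous_snd.continuousAt)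
    have hgne : ¬ ∀ᶠ r in 𝓝 (q₀.1, e q₀.2), gg r = 0 := by
      intro hz
      refine hne ?_
      filter_upwards [(hec hes).eventually hz,
        continuous_snd.continuousAt.eventually (e.open_source.mem_nhds hes)] with z b1 b2
      have b3 : g (z.1, e.symm (e z.2)) = 0 := b1
      rwa [e.left_inv b2] at b3
    obtain ⟨r, hr, hgan, hT⟩ := thin_prod h5 hgne
    have hN : ∀ᶠ z in 𝓝 q₀, z.2 ∈ e.source ∧ (z.1, e z.2) ∈ ball (q₀.1, e q₀.2) r ∧
        ∀ᶠ z' in 𝓝 z, z' ∈ A → g z' = 0 :=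
      (continuous_snd.continuousAt.eventually (e.open_source.mem_nhds hes)).and
        (((hec hes).eventually (ball_mem_nhds _ hr)).and (eventually_eventually_nhds.2 hev))
    refine ⟨_, hN, hT.mono ?_⟩
    rintro _ ⟨z, ⟨⟨-, hzP⟩, b1, b2, b3⟩, rfl⟩
    have b2' := b2
    rw [← ball_prod_same] at b2'
    refine ⟨b2'.1, e z.2, b2'.2, ?_⟩
    by_contra hc
    refine hzP ⟨fun x => gg (z.1, e x), ?_, ?_, ?_⟩
    · -- holomorphic
      have c1 : ContDiffAt ℂ ω (fun v : Cm h => gg (z.1, v)) (e z.2) := by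
        have c2 : AnalyticAt ℂ (fun v : Cm h => gg (z.1, v)) (e z.2) :=
          AnalyticAt.fun_comp (g := gg) (f := fun v : Cm h => (z.1, v)) (hgan _ b2)
            (analyticAt_const.prod analyticAt_id)
        exact c2.contDiffAt
      have c3 : ContMDiffAt 𝓘(ℂ, Cm h) 𝓘(ℂ, Cm h) ω e z.2 :=
        contMDiffAt_of_mem_maximalAtlas (IsManifold.chart_mem_maximalAtlas _) b1
      exact ContMDiffAt.comp z.2 (g := fun v : Cm h => gg (z.1, v)) (f := e) c1.contMDiffAt c3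
    · intro hz
      refine hc ?_
      have c1 : ContinuousAt e.symm (e z.2) := e.continuousAt_symm (e.map_source b1)
      have c2 : ∀ᶠ y in 𝓝 (e z.2), gg (z.1, e (e.symm y)) = 0 := by
        have c3 : Tendsto e.symm (𝓝 (e z.2)) (𝓝 z.2) := by
          have c4 := c1.tendsto
          rwa [e.left_inv b1] at c4
        exact c3.eventually (p := fun x => gg (z.1, e x) = 0) hz
      filter_upwards [c2, e.open_target.mem_nhds (e.map_source b1)] with y d1 d2
      rwa [e.right_inv d2] at d1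
    · have c1 : ContinuousAt (fun x : H => (z.1, x)) z.2 :=
        continuousAt_const.prodMk continuousAt_id
      filter_upwards [c1.eventually b3, e.open_source.mem_nhds b1] with x d1 d2 d3
      show g (z.1, e.symm (e x)) = 0
      rw [e.left_inv d2]
      exact d1 d3
  · intro t ht
    refine thin_of_isClosed (hA.preimage (continuous_const.prodMk continuous_id)) fun x hx => ?_
    by_contra hc
    exact ht ⟨(t, x), ⟨hx, fun hP => hc hP⟩, rfl⟩

/-- **Slices of a small set.** -/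
theorem small_slices [SecondCountableTopology H] {A : Set (Cm a × H)} (hA : IsClosed A)
    {Hk : ℕ → Set (Cm a × H)} (h1 : ∀ k, IsClosed (Hk k) ∧ LocA h (Hk k)) (h2 : A ⊆ ⋃ k, Hk k) :
    ∃ T : Set (Cm a), SThin (Cm a) T ∧
      ∀ t, t ∉ T → IsSmallSet (Cm h) {x : H | (t, x) ∈ A} := by
  choose T hT hT' using fun k => thin_slices (h1 k).1 (h1 k).2
  refine ⟨⋃ k, T k, SThin.iUnion hT, fun t ht => ⟨hA.preimage
    (continuous_const.prodMk continuous_id), fun k => {x : H | (t, x) ∈ Hk k},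
    fun k => hT' k t fun h3 => ht (mem_iUnion.2 ⟨k, h3⟩), fun x hx => ?_⟩⟩
  obtain ⟨k, hk⟩ := mem_iUnion.1 (h2 hx)
  exact mem_iUnion.2 ⟨k, hk⟩

end Vale.Agent.P281.H125.RC
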