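import Vale.Agent.P281.H125.RC.Slice
import Vale.Agent.P281.H125.RC.SlA
import Vale.Agent.P281.H118.HKT.Reg

/-!
# P281, project RADC (helper125), G-CONN: the very general fibres of `F : E → ℂ^a` are connected
-/

open Set Filter Metric
open Vale.Agent.P281.H64.Thin (IsThinSet)
open Vale.Agent.P281.H64.Gen (IsSmallSet)
open Vale.Agent.P281.H150.Gen
open scoped Topology ContDiff Manifold

set_option linter.unusedSectionVars false

noncomputable section

namespace Vale.Agent.P281.H125.RC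

open Vale.Agent.P281.H64 (Cm)
open Vale.Agent.P281.H64.TK
open Vale.Agent.P281.H842.HKT (p1 p2 ap pe p1_ap p2_ap ap_p)

section
variable {a h : ℕ} {E K : Type} [TopologicalSpace E] [Group K] [MulAction K E]
  [ContinuousConstSMul K E] {S : Sheets (a + h) E K} {F : E → Fin a → ℂ} {c : K → Fin a → ℂ}

/-- `C` is locally contained in hypersurfaces. -/
def LocC (S : Sheets (a + h) E K) (C : Set E) : Prop :=
  ∀ (γ : K) (j : Fin S.N), ∀ z ∈ ball (0 : Cm (a + h)) 3, ∃ g : Cm (a + h) → ℂ,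
    AnalyticAt ℂ g z ∧ (¬ ∀ᶠ w in 𝓝 z, g w = 0) ∧ ∀ᶠ w in 𝓝 z, γ • S.σ j w ∈ C → g w = 0

theorem gs_cont (γ : K) (i : Fin S.N) {z : Cm (a + h)} (hz : z ∈ ball (0 : Cm (a + h)) 3) :
    ContinuousAt (fun w => γ • S.σ i w) z :=
  (continuous_const_smul γ).continuousAt.comp (S.map_nhds i z hz).le

/-- **The fibres of `F` meet `C` in a nowhere dense set, off a very thin set.** -/
theorem bad_fib [Countable K] (hF : ∀ j, Add S (fun e => F e j) (fun γ => c γ j)) {C : Set E}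
    (hC : LocC S C) : ∃ T : Set (Cm a), SThin (Cm a) T ∧ ∀ t, t ∉ T →
      ∀ (γ : K) (i : Fin S.N), ∀ z ∈ ball (0 : Cm (a + h)) 3,
        Function.Surjective (fderiv ℂ (fun z => F (S.σ i z)) z) → F (γ • S.σ i z) = t →
          γ • S.σ i z ∈ closure (F ⁻¹' {t} \ C) := by
  have hadd : ∀ (γ : K) e, F (γ • e) = F e + c γ := fun γ e => by
    funext j
    exact (hF j).add γ e
  refine ⟨⋃ q : K × Fin S.N, (fun z => F (q.1 • S.σ q.2 z)) ''
    (Bp (fun z => F (q.1 • S.σ q.2 z)) {w | q.1 • S.σ q.2 w ∈ C} ∩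
      {z | z ∈ ball (0 : Cm (a + h)) 3 ∧
        Function.Surjective (fderiv ℂ (fun z => F (q.1 • S.σ q.2 z)) z)}), ?_, ?_⟩
  · refine SThin.iUnion fun q => ?_
    refine sl_ball (fun z hz => ?_) fun z hz => hC q.1 q.2 z hz
    have h1 : (fun z => F (q.1 • S.σ q.2 z)) = fun z => F (S.σ q.2 z) + c q.1 :=
      funext fun z => hadd _ _
    rw [h1]
    exact (H118.HKT.anAt hF q.2 hz).add analyticAt_const
  · intro t ht γ i z hz hs he
    by_contra hcl
    refine ht (mem_iUnion.2 ⟨(γ, i), z, ⟨?_, hz, ?_⟩, he⟩)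
    · have h1 : ∀ᶠ w in 𝓝 z, γ • S.σ i w ∈ (closure (F ⁻¹' {t} \ C))ᶜ :=
        (gs_cont γ i hz).eventually (isClosed_closure.isOpen_compl.mem_nhds hcl)
      show ∀ᶠ w in 𝓝 z, F (γ • S.σ i w) = F (γ • S.σ i z) → γ • S.σ i w ∈ C
      filter_upwards [h1] with w hw hw2
      by_contra hwC
      refine hw (subset_closure ⟨?_, hwC⟩)
      show F (γ • S.σ i w) = t
      rw [hw2, he]
    · have h1 : (fun z => F (γ • S.σ i z)) = fun z => F (S.σ i z) + c γ :=
        funext fun z => hadd _ _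
      show Function.Surjective (fderiv ℂ (fun z => F (γ • S.σ i z)) z)
      rw [h1, fderiv_add_const]
      exact hs

/-- `E` is locally compact. -/
theorem locallyCompact (S : Sheets (a + h) E K) : LocallyCompactSpace E := by
  refine ⟨fun e U hU => ?_⟩
  obtain ⟨γ, i, z, hz, rfl⟩ := S.cover e
  have hz3 : z ∈ ball (0 : Cm (a + h)) 3 := by
    rw [mem_ball_zero_iff]
    linarith
  have h1 : (fun w => γ • S.σ i w) ⁻¹' U ∈ 𝓝 z := gs_cont γ i hz3 hU
  obtain ⟨r, hr, hb⟩ := Metric.nhds_basis_closedBall.mem_iff.1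
    (inter_mem h1 (isOpen_ball.mem_nhds hz3))
  refine ⟨(fun w => γ • S.σ i w) '' closedBall z r, ?_, ?_, ?_⟩
  · have h2 : Filter.map (fun w => γ • S.σ i w) (𝓝 z) = 𝓝 (γ • S.σ i z) := by
      have h3 : Filter.map (fun e : E => γ • e) (𝓝 (S.σ i z)) = 𝓝 (γ • S.σ i z) :=
        (Homeomorph.smul γ).map_nhds_eq _
      rw [← h3, ← S.map_nhds i z hz3, Filter.map_map]
      rfl
    rw [← h2]
    exact image_mem_map (closedBall_mem_nhds z hr)
  · rintro _ ⟨w, hw, rfl⟩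
    exact (hb hw).1
  · exact (isCompact_closedBall z r).image_of_continuousOn fun w hw =>
      (gs_cont γ i (hb hw).2).continuousWithinAt

/-- **Countable unions** (Baire). -/
theorem dense_fib [T2Space E] [Countable K] (hF : ∀ j, Add S (fun e => F e j) (fun γ => c γ j))
    (hFc : Continuous F) {C : ℕ → Set E} (hC : ∀ k, IsClosed (C k) ∧ LocC S (C k)) :
    ∃ T : Set (Cm a), SThin (Cm a) T ∧ ∀ t, t ∉ T →
      (∀ (i : Fin S.N), ∀ z ∈ ball (0 : Cm (a + h)) 3, ∀ γ : K, F (γ • S.σ i z) = t →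
        Function.Surjective (fderiv ℂ (fun z => F (S.σ i z)) z)) →
      F ⁻¹' {t} ⊆ closure (F ⁻¹' {t} \ ⋃ k, C k) := by
  choose T hT hT' using fun k => bad_fib hF (hC k).2
  refine ⟨⋃ k, T k, SThin.iUnion hT, fun t ht hs e he => ?_⟩
  have hXc : IsClosed (F ⁻¹' {t}) := isClosed_singleton.preimage hFc
  have := locallyCompact S
  have : LocallyCompactSpace (F ⁻¹' {t}) := hXc.isClosedEmbedding_subtypeVal.locallyCompactSpace
  have hO : ∀ k, IsOpen {x : F ⁻¹' {t} | x.1 ∉ C k} := fun k =>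
    (hC k).1.isOpen_compl.preimage continuous_subtype_val
  have hD : ∀ k, Dense {x : F ⁻¹' {t} | x.1 ∉ C k} := by
    intro k x
    obtain ⟨γ, i, z, hz, hx⟩ := S.cover x.1
    have hz3 : z ∈ ball (0 : Cm (a + h)) 3 := by
      rw [mem_ball_zero_iff]
      linarith
    have h1 : F (γ • S.σ i z) = t := by
      rw [hx]
      exact x.2
    have h2 := hT' k t (fun h3 => ht (mem_iUnion.2 ⟨k, h3⟩)) γ i z hz3 (hs i z hz3 γ h1) h1
    rw [hx] at h2
    rw [mem_closure_iff_nhds] at h2 ⊢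
    intro U hU
    obtain ⟨V, hV, hVU⟩ := mem_nhds_subtype_iff_nhdsWithin.1 hU |> mem_nhdsWithin_iff_exists_mem_nhds_inter.1
    obtain ⟨e', he', he2⟩ := h2 V hV
    exact ⟨⟨e', he2.1⟩, by
      obtain ⟨y, hy, hye⟩ := hVU ⟨he', he2.1⟩
      have : y = ⟨e', he2.1⟩ := Subtype.ext hye
      rwa [this] at hy, he2.2⟩
  have h3 := dense_iInter_of_isOpen hO hD (⟨e, he⟩ : F ⁻¹' {t})
  rw [mem_closure_iff_nhds] at h3 ⊢
  intro U hU
  obtain ⟨y, hy1, hy2⟩ := h3 (Subtype.val ⁻¹' U) (continuous_subtype_val.continuousAt hU)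
  refine ⟨y.1, hy1, y.2, fun h4 => ?_⟩
  obtain ⟨k, hk⟩ := mem_iUnion.1 h4
  exact mem_iInter.1 hy2 k hk

end

section conn
variable {a h : ℕ} {E K H : Type} [TopologicalSpace E] [Group K] [MulAction K E]
  [ContinuousConstSMul K E] {S : Sheets (a + h) E K} {F : E → Fin a → ℂ} {c : K → Fin a → ℂ}
  [TopologicalSpace H] {ψ : E → Cm a × H} {A : Set (Cm a × H)}

/-- The part off `ψ⁻¹ A` of a fibre. -/
theorem preconn_off (hA : IsClosed A) (hsurj : Function.Surjective ψ)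
    (hinj : ∀ e e', ψ e = ψ e' → ψ e ∉ A → e = e')
    (hopn : ∀ e, ψ e ∉ A → Filter.map ψ (𝓝 e) = 𝓝 (ψ e)) {t : Cm a}
    (hp : IsPreconnected {x : H | (t, x) ∈ A}ᶜ) :
    IsPreconnected ({e | (ψ e).1 = t} \ ψ ⁻¹' A) := by
  set s : Cm a × H → E := Function.surjInv hsurj with hs
  have hψs : ∀ q, ψ (s q) = q := Function.surjInv_eq hsurj
  have hc : ∀ q, q ∉ A → ContinuousAt s q := by
    intro q hq U hU
    have h1 : ψ '' U ∈ 𝓝 q := by
      have h2 := hopn (s q) (by rwa [hψs])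
      rw [hψs] at h2
      rw [← h2]
      exact image_mem_map hU
    have h4 : ψ '' U ∩ Aᶜ ∈ 𝓝 q := inter_mem h1 (hA.isOpen_compl.mem_nhds hq)
    show s ⁻¹' U ∈ 𝓝 q
    refine mem_of_superset h4 ?_
    rintro _ ⟨⟨u, hu, rfl⟩, hq'⟩
    have h3 : s (ψ u) = u := hinj _ _ (hψs _) (by rw [hψs]; exact hq')
    show s (ψ u) ∈ U
    rw [h3]
    exact hu
  have h1 : {e | (ψ e).1 = t} \ ψ ⁻¹' A = (fun x => s (t, x)) '' {x : H | (t, x) ∈ A}ᶜ := by
    ext e
    constructor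
    · rintro ⟨he, heA⟩
      have he' : (ψ e).1 = t := he
      have h2 : ψ e = (t, (ψ e).2) := by rw [← he']
      refine ⟨(ψ e).2, ?_, ?_⟩
      · show (t, (ψ e).2) ∉ A
        rw [← h2]
        exact heA
      · show s (t, (ψ e).2) = e
        rw [← h2]
        exact hinj _ _ (hψs _) (by rw [hψs]; exact heA)
    · rintro ⟨x, hx, rfl⟩
      refine ⟨?_, ?_⟩
      · show (ψ (s (t, x))).1 = t
        rw [hψs]
      · show ψ (s (t, x)) ∉ A
        rw [hψs]
        exact hx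
  rw [h1]
  refine hp.image _ fun x hx => ?_
  exact ((hc (t, x) hx).comp (f := fun x : H => (t, x))
    (continuousAt_const.prodMk continuousAt_id)).continuousWithinAt

variable (h) in
/-- `ψ : E → ℂ^a × H` is onto, and an isomorphism off the small set `A`; `F = pr₁ ∘ ψ`. -/
structure PsiA [ChartedSpace (Cm h) H] (S : Sheets (a + h) E K) (F : E → Fin a → ℂ)
    (ψ : E → Cm a × H) (A : Set (Cm a × H)) : Prop where
  fst : ∀ e, (ψ e).1 = F e
  surj : Function.Surjective ψ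
  inj : ∀ e e', ψ e = ψ e' → ψ e ∉ A → e = e'
  opn : ∀ e, ψ e ∉ A → Filter.map ψ (𝓝 e) = 𝓝 (ψ e)
  closed : IsClosed A
  small : ∃ Hk : ℕ → Set (Cm a × H), (∀ k, IsClosed (Hk k) ∧ LocA h (Hk k)) ∧ A ⊆ ⋃ k, Hk k
  pre : ∃ C : ℕ → Set E, (∀ k, IsClosed (C k) ∧ LocC S (C k)) ∧ ψ ⁻¹' A ⊆ ⋃ k, C k

/-- **The very general fibres of `F` are connected.** -/
theorem conn [T2Space E] [ChartedSpace (Cm h) H] [IsManifold 𝓘(ℂ, Cm h) ω H] [T2Space H]
    [PreconnectedSpace H] [SecondCountableTopology H]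
    (hF : ∀ j, Add S (fun e => F e j) (fun γ => c γ j))
    (hFc : Continuous F) (hfin : ∀ R : ℝ, {k : K | ‖c k‖ ≤ R}.Finite) (hψ : PsiA h S F ψ A) :
    ∃ Hk : ℕ → Set (Cm a), (∀ k, IsThinSet (Cm a) (Hk k)) ∧ ∀ t, (∀ k, t ∉ Hk k) →
      IsPreconnected (F ⁻¹' {t}) := by
  -- `K` is countable
  have hK : Countable K := by
    have h1 : (univ : Set K) = ⋃ n : ℕ, {k : K | ‖c k‖ ≤ n} := by
      ext k
      simp only [mem_univ, mem_iUnion, mem_ofPred_eq, true_iff]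
      exact exists_nat_ge _
    have h2 : (univ : Set K).Countable := by
      rw [h1]
      exact countable_iUnion fun n => (hfin n).countable
    exact countable_univ_iff.1 h2
  -- the periods are discrete
  have hdisc : ∃ δ > 0, ∀ γ, ‖c γ‖ < δ → c γ = 0 := by
    have h1 : ((c '' {k : K | ‖c k‖ ≤ 1}) \ {0}).Finite := ((hfin 1).image c).sdiff
    have h2 : (0 : Fin a → ℂ) ∈ ((c '' {k : K | ‖c k‖ ≤ 1}) \ {0})ᶜ := fun h3 => h3.2 rfl
    obtain ⟨δ, hδ, hb⟩ := Metric.isOpen_iff.1 h1.isClosed.isOpen_compl _ h2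
    refine ⟨min δ 1, lt_min hδ one_pos, fun γ hγ => ?_⟩
    by_contra h3
    exact hb (mem_ball_zero_iff.2 (hγ.trans_le (min_le_left _ _)))
      ⟨⟨γ, (hγ.trans_le (min_le_right _ _)).le, rfl⟩, h3⟩
  obtain ⟨B, hB, hBi, hBr⟩ := H118.HKT.crit_small S hF hdisc
  obtain ⟨C, hC, hAC⟩ := hψ.pre
  obtain ⟨T₁, hT₁, h₁⟩ := dense_fib hF hFc hC
  obtain ⟨Hk, hHk, hAH⟩ := hψ.small
  obtain ⟨T₂, hT₂, h₂⟩ := small_slices (h := h) hψ.closed hHk hAH
  obtain ⟨G, hG, hsub⟩ := (SThin.union (SThin.union (E := Cm a) hB.2 hT₁) hT₂)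
  refine ⟨G, hG, fun t ht => ?_⟩
  have ht' : t ∉ B ∪ T₁ ∪ T₂ := fun h3 => by
    obtain ⟨k, hk⟩ := mem_iUnion.1 (hsub h3)
    exact ht k hk
  have htB : t ∉ B := fun h3 => ht' (Or.inl (Or.inl h3))
  have htT₁ : t ∉ T₁ := fun h3 => ht' (Or.inl (Or.inr h3))
  have htT₂ : t ∉ T₂ := fun h3 => ht' (Or.inr h3)
  have hcn : IsPreconnected {x : H | (t, x) ∈ A}ᶜ := (H383.Gen.compl h H _ (h₂ t htT₂)).2
  have hoff := preconn_off hψ.closed hψ.surj hψ.inj hψ.opn hcn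
  have he : {e | (ψ e).1 = t} \ ψ ⁻¹' A = F ⁻¹' {t} \ ψ ⁻¹' A := by
    ext e
    simp only [Set.mem_sdiff, mem_ofPred_eq, mem_preimage, mem_singleton_iff, hψ.fst]
  rw [he] at hoff
  refine hoff.subset_closure sdiff_subset ((h₁ t htT₁ fun i z hz γ het => ?_).trans
    (closure_mono (sdiff_subset_sdiff_right hAC)))
  have h3 : F (γ • S.σ i z) = F (S.σ i z) + c γ := by
    funext j
    exact (hF j).add γ _
  have h4 : F (S.σ i z) ∉ B := by
    intro h5
    refine htB ?_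
    rw [← het, h3]
    exact (hBi _ γ).2 h5
  exact (hBr i z hz h4).1

end conn

end Vale.Agent.P281.H125.RC
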