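import Vale.Agent.P281.H125.RC.Conn
import Vale.Agent.P281.H191.RC.PsiT

/-!
# P281, project RADC (helper125), G-CONN from helper191's `PsiT`
-/

open Set Filter Metric
open Vale.Agent.P281.H64.Thin (IsThinSet)
open scoped Topology ContDiff Manifold

set_option linter.unusedSectionVars false

noncomputable section

namespace Vale.Agent.P281.H125.RC

open Vale.Agent.P281.H64 (Cm)
open Vale.Agent.P281.H64.TK
open Vale.Agent.P281.H191.RC (PsiT Sml2)
open Vale.Agent.P281.H842.HKT (p1 p2 ap pe p1_ap p2_ap ap_p)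

section
variable {a h : ℕ} {E K H : Type} [TopologicalSpace E] [Group K] [MulAction K E]
  [ContinuousConstSMul K E] {S : Sheets (a + h) E K} [TopologicalSpace H]
  [ChartedSpace (Cm h) H] {ψ : E → Cm a × H} {l : K → Cm a} {A : Set (Cm a × H)}

/-- the coordinates of `ψ` -/
def Ph (S : Sheets (a + h) E K) (ψ : E → Cm a × H) (j : Fin S.N)
    (c : OpenPartialHomeomorph H (Cm h)) (v : Cm (a + h)) : Cm a × Cm h :=
  ((ψ (S.σ j v)).1, c (ψ (S.σ j v)).2)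

/-- an analytic map with injective derivative is open at the point -/
theorem map_of_inj {Φ : Cm (a + h) → Cm a × Cm h} {z : Cm (a + h)} (hΦ : AnalyticAt ℂ Φ z)
    (hi : Function.Injective (fderiv ℂ Φ z)) : Filter.map Φ (𝓝 z) = 𝓝 (Φ z) := by
  have hd : Module.finrank ℂ (Cm (a + h)) = Module.finrank ℂ (Cm a × Cm h) := by
    rw [Module.finrank_prod, Module.finrank_fin_fun, Module.finrank_fin_fun,
      Module.finrank_fin_fun]
  set L : Cm (a + h) ≃L[ℂ] Cm a × Cm h :=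
    (LinearMap.linearEquivOfInjective (fderiv ℂ Φ z : Cm (a + h) →ₗ[ℂ] Cm a × Cm h) hi
      hd).toContinuousLinearEquiv with hL
  have hL' : (L : Cm (a + h) →L[ℂ] Cm a × Cm h) = fderiv ℂ Φ z := by
    ext1 v
    rfl
  have h1 : HasStrictFDerivAt Φ (L : Cm (a + h) →L[ℂ] Cm a × Cm h) z := by
    rw [hL']
    exact hΦ.hasStrictFDerivAt
  exact h1.map_nhds_eq_of_equiv

theorem psc (hψ : PsiT (h := h) S ψ l A) (j : Fin S.N) {z : Cm (a + h)}
    (hz : z ∈ ball (0 : Cm (a + h)) 3) : ContinuousAt (fun v => ψ (S.σ j v)) z :=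
  hψ.cont.continuousAt.comp (S.map_nhds j z hz).le

/-- `ψ` is open off `A` -/
theorem opn_of (hψ : PsiT (h := h) S ψ l A) (e : E) (he : ψ e ∉ A) :
    Filter.map ψ (𝓝 e) = 𝓝 (ψ e) := by
  obtain ⟨γ, i, z, hz, rfl⟩ := S.cover e
  have hz3 : z ∈ ball (0 : Cm (a + h)) 3 := by
    rw [mem_ball_zero_iff]
    linarith
  have he₀ : ψ (S.σ i z) ∉ A := by
    rw [hψ.eqv] at he
    exact fun h1 => he ((hψ.inv γ _).2 h1)
  set c := chartAt (Cm h) (ψ (S.σ i z)).2 with hc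
  have hcs : (ψ (S.σ i z)).2 ∈ c.source := mem_chart_source _ _
  have hca : c ∈ atlas (Cm h) H := chart_mem_atlas _ _
  have h1 : Filter.map (Ph S ψ i c) (𝓝 z) = 𝓝 (Ph S ψ i c z) :=
    map_of_inj (hψ.hol i z hz3 c hca hcs) (hψ.nd i z hz3 c hca hcs he₀)
  have h2 : (fun v => ψ (S.σ i v)) =ᶠ[𝓝 z]
      (Prod.map id c.symm : Cm a × Cm h → Cm a × H) ∘ Ph S ψ i c := by
    have h3 : ∀ᶠ v in 𝓝 z, (ψ (S.σ i v)).2 ∈ c.source :=
      (continuous_snd.continuousAt.comp (psc hψ i hz3)).eventually (c.open_source.mem_nhds hcs)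
    filter_upwards [h3] with v hv
    show ψ (S.σ i v) = ((ψ (S.σ i v)).1, c.symm (c (ψ (S.σ i v)).2))
    rw [c.left_inv hv]
  have h4 : Filter.map ψ (𝓝 (S.σ i z)) = 𝓝 (ψ (S.σ i z)) := by
    rw [← S.map_nhds i z hz3, Filter.map_map]
    have h5 : Filter.map (ψ ∘ S.σ i) (𝓝 z) = Filter.map
        ((Prod.map id c.symm : Cm a × Cm h → Cm a × H) ∘ Ph S ψ i c) (𝓝 z) := map_congr h2
    rw [h5, ← Filter.map_map, h1, nhds_prod_eq]
    have h6 := Filter.prod_map_map_eq (f₁ := 𝓝 (Ph S ψ i c z).1) (f₂ := 𝓝 (Ph S ψ i c z).2)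
      (m₁ := (id : Cm a → Cm a)) (m₂ := c.symm)
    have h7 : Filter.map c.symm (𝓝 (Ph S ψ i c z).2) = 𝓝 (ψ (S.σ i z)).2 := by
      have h8 := c.symm.map_nhds_eq (x := (Ph S ψ i c z).2) (c.map_source hcs)
      rw [h8]
      show 𝓝 (c.symm (c (ψ (S.σ i z)).2)) = _
      rw [c.left_inv hcs]
    rw [Filter.map_id, h7] at h6
    have h9 : 𝓝 (ψ (S.σ i z)) = 𝓝 (ψ (S.σ i z)).1 ×ˢ 𝓝 (ψ (S.σ i z)).2 := nhds_prod_eq
    rw [h9]
    exact h6.symm
  have h5 : Filter.map (fun e : E => γ • e) (𝓝 (S.σ i z)) = 𝓝 (γ • S.σ i z) :=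
    (Homeomorph.smul γ).map_nhds_eq _
  have h6 : (ψ ∘ fun e : E => γ • e) = (fun q : Cm a × H => (q.1 + l γ, q.2)) ∘ ψ :=
    funext fun e => hψ.eqv γ e
  rw [← h5, Filter.map_map, h6, ← Filter.map_map, h4]
  have h7 : Filter.map (fun q : Cm a × H => (q.1 + l γ, q.2)) (𝓝 (ψ (S.σ i z))) =
      𝓝 ((ψ (S.σ i z)).1 + l γ, (ψ (S.σ i z)).2) :=
    ((Homeomorph.addRight (l γ)).prodCongr (Homeomorph.refl H)).map_nhds_eq _
  rw [h7]
  show _ = 𝓝 (ψ (γ • S.σ i z))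
  rw [hψ.eqv]

/-- a function with a surjective pair of differentials does not vanish identically -/
theorem ne_of_surj {g : Fin 2 → Cm a × Cm h → ℂ} {p : Cm a × Cm h}
    (hs : Function.Surjective fun (ξ : Cm a × Cm h) (i : Fin 2) => fderiv ℂ (g i) p ξ) :
    ¬ ∀ᶠ r in 𝓝 p, g 0 r = 0 := by
  intro hz
  obtain ⟨ξ, hξ⟩ := hs fun _ => 1
  have h1 : fderiv ℂ (g 0) p ξ = 1 := congrFun hξ 0
  have h2 : g 0 =ᶠ[𝓝 p] fun _ => 0 := hz
  rw [h2.fderiv_eq] at h1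
  simp at h1

variable [IsManifold 𝓘(ℂ, Cm h) ω H]

theorem locA_of {N : Set (Cm a × H)} (hN : ∀ q ∈ N, ∀ e ∈ atlas (Cm h) H, q.2 ∈ e.source →
      ∃ g : Fin 2 → Cm a × Cm h → ℂ, (∀ i, AnalyticAt ℂ (g i) (q.1, e q.2)) ∧
        (Function.Surjective fun (ξ : Cm a × Cm h) (i : Fin 2) =>
          fderiv ℂ (g i) (q.1, e q.2) ξ) ∧
        ∀ᶠ r in 𝓝 (q.1, e q.2), (r.1, e.symm r.2) ∈ N → ∀ i, g i r = 0) : LocA h N := by
  intro q hq
  set c := chartAt (Cm h) q.2 with hc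
  have hcs : q.2 ∈ c.source := mem_chart_source _ _
  obtain ⟨g, h1, h2, h3⟩ := hN q hq c (chart_mem_atlas _ _) hcs
  have hcc : ContinuousAt (fun z : Cm a × H => (z.1, c z.2)) q :=
    continuous_fst.continuousAt.prodMk
      (ContinuousAt.comp (g := c) (f := Prod.snd) (c.continuousAt hcs) continuous_snd.continuousAt)
  refine ⟨fun z => g 0 (z.1, c z.2), ?_, ?_, ?_⟩
  · have a1 : ContMDiffAt 𝓘(ℂ, Cm h) 𝓘(ℂ, Cm h) ω c q.2 :=
      contMDiffAt_of_mem_maximalAtlas (IsManifold.chart_mem_maximalAtlas _) hcs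
    have a2 : ContMDiffAt (𝓘(ℂ, Cm a).prod 𝓘(ℂ, Cm h)) 𝓘(ℂ, Cm h) ω
        (fun z : Cm a × H => c z.2) q :=
      ContMDiffAt.comp q (g := c) (f := fun z : Cm a × H => z.2) a1 contMDiffAt_snd
    have a3 : ContMDiffAt (𝓘(ℂ, Cm a).prod 𝓘(ℂ, Cm h)) 𝓘(ℂ, Cm a × Cm h) ω
        (fun z : Cm a × H => (z.1, c z.2)) q := contMDiffAt_fst.prodMk_space a2
    exact ContMDiffAt.comp q (g := g 0) (f := fun z : Cm a × H => (z.1, c z.2))
      (h1 0).contDiffAt.contMDiffAt a3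
  · intro hz
    refine ne_of_surj h2 ?_
    have b1 : Tendsto (fun r : Cm a × Cm h => (r.1, c.symm r.2)) (𝓝 (q.1, c q.2)) (𝓝 q) := by
      have b2 : ContinuousAt (fun r : Cm a × Cm h => (r.1, c.symm r.2)) (q.1, c q.2) :=
        continuous_fst.continuousAt.prodMk (ContinuousAt.comp (g := c.symm) (f := Prod.snd)
          (c.continuousAt_symm (c.map_source hcs)) continuous_snd.continuousAt)
      have b3 := b2.tendsto
      rwa [c.left_inv hcs] at b3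
    have b4 : ∀ᶠ r : Cm a × Cm h in 𝓝 (q.1, c q.2), r.2 ∈ c.target :=
      continuous_snd.continuousAt.eventually (c.open_target.mem_nhds (c.map_source hcs))
    filter_upwards [b1.eventually hz, b4] with r d1 d2
    have d3 : g 0 (r.1, c (c.symm r.2)) = 0 := d1
    rwa [c.right_inv d2] at d3
  · filter_upwards [hcc.eventually h3,
      continuous_snd.continuousAt.eventually (c.open_source.mem_nhds hcs)] with z d1 d2 d3
    refine d1 ?_ 0
    show (z.1, c.symm (c z.2)) ∈ N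
    rw [c.left_inv d2]
    exact d3

theorem locC_of (hψ : PsiT (h := h) S ψ l A) {N : Set (Cm a × H)} (hNc : IsClosed N)
    (hN : ∀ q ∈ N, ∀ e ∈ atlas (Cm h) H, q.2 ∈ e.source →
      ∃ g : Fin 2 → Cm a × Cm h → ℂ, (∀ i, AnalyticAt ℂ (g i) (q.1, e q.2)) ∧
        (Function.Surjective fun (ξ : Cm a × Cm h) (i : Fin 2) =>
          fderiv ℂ (g i) (q.1, e q.2) ξ) ∧
        ∀ᶠ r in 𝓝 (q.1, e q.2), (r.1, e.symm r.2) ∈ N → ∀ i, g i r = 0) :
    LocC S (ψ ⁻¹' N) := by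
  intro γ j z hz
  have hcσ : ContinuousAt (fun w => γ • S.σ j w) z := gs_cont γ j hz
  by_cases hm : ψ (γ • S.σ j z) ∈ N
  swap
  · refine ⟨fun _ => 1, analyticAt_const, fun h1 => ?_, ?_⟩
    · obtain ⟨_, h2⟩ := h1.exists
      exact one_ne_zero h2
    · have h1 : ∀ᶠ w in 𝓝 z, ψ (γ • S.σ j w) ∈ Nᶜ :=
        (hψ.cont.continuousAt.comp hcσ).eventually (hNc.isOpen_compl.mem_nhds hm)
      filter_upwards [h1] with w hw hw2
      exact absurd hw2 hw
  set q := ψ (γ • S.σ j z) with hq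
  have hq' : q = ((ψ (S.σ j z)).1 + l γ, (ψ (S.σ j z)).2) := hψ.eqv γ _
  set c := chartAt (Cm h) q.2 with hc
  have hcs : q.2 ∈ c.source := mem_chart_source _ _
  have hca : c ∈ atlas (Cm h) H := chart_mem_atlas _ _
  have hcs' : (ψ (S.σ j z)).2 ∈ c.source := by
    have : q.2 = (ψ (S.σ j z)).2 := by rw [hq']
    rwa [this] at hcs
  obtain ⟨g, h1, h2, h3⟩ := hN q hm c hca hcs
  -- the coordinates
  set Φ : Cm (a + h) → Cm a × Cm h := fun v => ((Ph S ψ j c v).1 + l γ, (Ph S ψ j c v).2) with hΦ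
  have hΦz : Φ z = (q.1, c q.2) := by
    show ((ψ (S.σ j z)).1 + l γ, c (ψ (S.σ j z)).2) = (q.1, c q.2)
    rw [hq']
  have hPa : ∀ v ∈ ball (0 : Cm (a + h)) 3, (ψ (S.σ j v)).2 ∈ c.source →
      AnalyticAt ℂ Φ v := by
    intro v hv hvs
    have e1 : AnalyticAt ℂ (Ph S ψ j c) v := hψ.hol j v hv c hca hvs
    have e2 : AnalyticAt ℂ (fun v => (Ph S ψ j c v).1 + l γ) v := by
      have e3 : AnalyticAt ℂ (fun v => (Ph S ψ j c v).1) v := by
        have := AnalyticAt.fun_comp (g := Prod.fst) (f := Ph S ψ j c) analyticAt_fst e1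
        exact this
      exact e3.add analyticAt_const
    have e4 : AnalyticAt ℂ (fun v => (Ph S ψ j c v).2) v :=
      AnalyticAt.fun_comp (g := Prod.snd) (f := Ph S ψ j c) analyticAt_snd e1
    exact e2.prod e4
  have hΦa := hPa z hz hcs'
  have hsrc : ∀ᶠ v in 𝓝 z, (ψ (S.σ j v)).2 ∈ c.source :=
    (continuous_snd.continuousAt.comp (psc hψ j hz)).eventually (c.open_source.mem_nhds hcs')
  have hΦt : Tendsto Φ (𝓝 z) (𝓝 (q.1, c q.2)) := by
    have := hΦa.continuousAt.tendsto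
    rwa [hΦz] at this
  refine ⟨fun v => g 0 (Φ v), ?_, ?_, ?_⟩
  · exact AnalyticAt.fun_comp (g := g 0) (f := Φ) (by rw [hΦz]; exact h1 0) hΦa
  · intro hz0
    refine ne_of_surj h2 ?_
    obtain ⟨R, hR, hball⟩ := Metric.eventually_nhds_iff_ball.1 (h1 0).eventually_analyticAt
    have hU : ∀ᶠ v in 𝓝 z, (∀ᶠ v' in 𝓝 v, g 0 (Φ v') = 0) ∧ (ψ (S.σ j v)).2 ∈ c.source ∧
        Φ v ∈ ball (q.1, c q.2) R :=
      (eventually_eventually_nhds.2 hz0).and (hsrc.and (hΦt.eventually (ball_mem_nhds _ hR)))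
    obtain ⟨w, ⟨w1, w2, w3⟩, hw3, hwA⟩ := hψ.dense j z hz _ hU
    -- the map `Φ` is open at `w`
    have e1 : Filter.map (Ph S ψ j c) (𝓝 w) = 𝓝 (Ph S ψ j c w) :=
      map_of_inj (hψ.hol j w hw3 c hca w2) (hψ.nd j w hw3 c hca w2 hwA)
    have e2 : Filter.map Φ (𝓝 w) = 𝓝 (Φ w) := by
      have e3 : Φ = (fun r : Cm a × Cm h => (r.1 + l γ, r.2)) ∘ Ph S ψ j c := rfl
      rw [e3, ← Filter.map_map, e1]
      exact ((Homeomorph.addRight (l γ)).prodCongr (Homeomorph.refl (Cm h))).map_nhds_eq _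
    have e4 : ∀ᶠ r in 𝓝 (Φ w), g 0 r = 0 := by
      rw [← e2]
      exact w1
    have e5 : AnalyticOnNhd ℂ (g 0) (ball (q.1, c q.2) R) := hball
    have e6 := e5.eqOn_zero_of_preconnected_of_eventuallyEq_zero (convex_ball _ _).isPreconnected
      w3 e4
    exact mem_of_superset (ball_mem_nhds _ hR) fun r hr => e6 hr
  · filter_upwards [hΦt.eventually h3, hsrc] with v d1 d2 d3
    refine d1 ?_ 0
    have d4 : (Φ v).1 = (ψ (γ • S.σ j v)).1 := by
      rw [hψ.eqv]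
      rfl
    have d5 : c.symm (Φ v).2 = (ψ (γ • S.σ j v)).2 := by
      rw [hψ.eqv]
      exact c.left_inv d2
    rw [d4, d5]
    exact d3

/-- **`PsiT ⊢ PsiA`** -/
theorem psiA (hψ : PsiT (h := h) S ψ l A) : PsiA h S (fun e => (ψ e).1) ψ A where
  fst _ := rfl
  surj := hψ.surj
  inj := hψ.inj
  opn := opn_of hψ
  closed := hψ.small.closed
  small := by
    obtain ⟨N, h1, h2, h3⟩ := hψ.small.cov
    exact ⟨N, fun k => ⟨h1 k, locA_of (h3 k)⟩, h2⟩
  pre := by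
    obtain ⟨N, h1, h2, h3⟩ := hψ.small.cov
    refine ⟨fun k => ψ ⁻¹' N k, fun k => ⟨(h1 k).preimage hψ.cont, locC_of hψ (h1 k) (h3 k)⟩, ?_⟩
    rw [← preimage_iUnion]
    exact preimage_mono h2

/-- the components of `ψ` are additive -/
theorem add_psi (hψ : PsiT (h := h) S ψ l A) (j : Fin a) :
    Add S (fun e => (ψ e).1 j) (fun γ => l γ j) where
  hol i := by
    intro z hz
    set c := chartAt (Cm h) (ψ (S.σ i z)).2 with hc
    have h1 := hψ.hol i z hz c (chart_mem_atlas _ _) (mem_chart_source _ _)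
    have h2 : AnalyticAt ℂ (fun v => (ψ (S.σ i v)).1) z :=
      AnalyticAt.fun_comp (g := Prod.fst)
        (f := fun v => ((ψ (S.σ i v)).1, c (ψ (S.σ i v)).2)) analyticAt_fst h1
    exact ((differentiableAt_pi.1 h2.differentiableAt) j).differentiableWithinAt
  add γ e := by
    show (ψ (γ • e)).1 j = _
    rw [hψ.eqv]
    rfl

/-- **G-CONN**, from `PsiT`. -/
theorem connT [T2Space E] [T2Space H] [PreconnectedSpace H] [SecondCountableTopology H]
    (hfin : ∀ R : ℝ, {k : K | ‖l k‖ ≤ R}.Finite) (hψ : PsiT (h := h) S ψ l A) :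
    ∃ Hk : ℕ → Set (Cm a), (∀ k, IsThinSet (Cm a) (Hk k)) ∧ ∀ t, (∀ k, t ∉ Hk k) →
      IsPreconnected ((fun e => (ψ e).1) ⁻¹' {t}) :=
  conn (fun j => add_psi hψ j) (continuous_fst.comp hψ.cont) hfin (psiA hψ)

/-- **G-CONN**, from `PsiT`, for compact `H`. -/
theorem connTc [T2Space E] [T2Space H] [CompactSpace H] [PreconnectedSpace H]
    (hfin : ∀ R : ℝ, {k : K | ‖l k‖ ≤ R}.Finite) (hψ : PsiT (h := h) S ψ l A) :
    ∃ Hk : ℕ → Set (Cm a), (∀ k, IsThinSet (Cm a) (Hk k)) ∧ ∀ t, (∀ k, t ∉ Hk k) →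
      IsPreconnected ((fun e => (ψ e).1) ⁻¹' {t}) := by
  have : SecondCountableTopology H := ChartedSpace.secondCountable_of_sigmaCompact (Cm h) H
  exact connT hfin hψ

end

end Vale.Agent.P281.H125.RC
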