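import Vale.Agent.P281.H125.RC.Thin
import Vale.Agent.P281.H22.HKT.Ift

/-!
# P281, project RADC (helper125), G-CONN: the fibres of a submersion and a hypersurface
-/

open Set Filter Metric
open Vale.Agent.P281.H64.Thin (IsThinSet)
open Vale.Agent.P281.H150.Gen
open scoped Topology ContDiff

noncomputable section

namespace Vale.Agent.P281.H125.RC

open Vale.Agent.P281.H64 (Cm)
open Vale.Agent.P281.H864.K (inv_hol)
open Vale.Agent.P281.H842.HKT (p1 p2 ap pe p1_ap p2_ap ap_p)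

variable {a m : ℕ}

/-- The points of `C` where the fibre of `G` is locally contained in `C`. -/
def Bp (G : Cm (a + m) → Cm a) (C : Set (Cm (a + m))) : Set (Cm (a + m)) :=
  {z | ∀ᶠ z' in 𝓝 z, G z' = G z → z' ∈ C}

/-- **Local form**: near a point where `G` is submersive, the values at the points of `Bp` are in a
thin set. -/
theorem sl_local {G : Cm (a + m) → Cm a} {z₀ : Cm (a + m)} (hz₀ : z₀ ∈ ball (0 : Cm (a + m)) 3)
    (hG : AnalyticAt ℂ G z₀) (hs : Function.Surjective (fderiv ℂ G z₀)) {C : Set (Cm (a + m))}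
    {g : Cm (a + m) → ℂ} (hg : AnalyticAt ℂ g z₀) (hne : ¬ ∀ᶠ z in 𝓝 z₀, g z = 0)
    (hC : ∀ᶠ z in 𝓝 z₀, z ∈ C → g z = 0) :
    ∃ N ∈ 𝓝 z₀, SThin (Cm a) (G '' (Bp G C ∩ N)) := by
  obtain ⟨χ, R, hR, hχ0, hχ, -⟩ := H22.HKT.exists_coord hz₀ hG hs
  have h0 : (0 : Cm (a + m)) ∈ ball (0 : Cm (a + m)) R := mem_ball_self hR
  obtain ⟨hχa, -, hdet, -⟩ := hχ 0 h0
  obtain ⟨κ, k1, k2, -, k4⟩ := inv_hol hχa hdet
  rw [hχ0] at k1 k2 k4
  -- the function in the adapted coordinates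
  have hcont : Continuous fun q : Cm a × Cm m => (pe a m).symm (q.1 - G z₀, q.2) :=
    (pe a m).symm.continuous.comp
      ((continuous_fst.sub continuous_const).prodMk continuous_snd)
  have hpa : ∀ q : Cm a × Cm m,
      AnalyticAt ℂ (fun q : Cm a × Cm m => (pe a m).symm (q.1 - G z₀, q.2)) q := fun q =>
    AnalyticAt.fun_comp (g := fun v : Cm a × Cm m => (pe a m).symm v)
      (f := fun q : Cm a × Cm m => (q.1 - G z₀, q.2))
      (((pe a m).symm : Cm a × Cm m →L[ℂ] Cm (a + m)).analyticAt _)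
      ((analyticAt_fst.sub analyticAt_const).prod analyticAt_snd)
  have hp0 : (pe a m).symm ((G z₀, (0 : Cm m)).1 - G z₀, (G z₀, (0 : Cm m)).2) = 0 := by
    simp only [sub_self]
    exact map_zero (pe a m).symm
  set gg : Cm a × Cm m → ℂ := fun q => g (χ ((pe a m).symm (q.1 - G z₀, q.2))) with hgg
  have hgga : AnalyticAt ℂ gg (G z₀, 0) := by
    have h1 : AnalyticAt ℂ (fun q : Cm a × Cm m => χ ((pe a m).symm (q.1 - G z₀, q.2)))
        (G z₀, 0) :=
      AnalyticAt.fun_comp (g := χ) (f := fun q : Cm a × Cm m => (pe a m).symm (q.1 - G z₀, q.2))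
        (by rw [hp0]; exact hχa) (hpa _)
    exact AnalyticAt.fun_comp (g := g)
      (f := fun q : Cm a × Cm m => χ ((pe a m).symm (q.1 - G z₀, q.2)))
      (by rw [hp0, hχ0]; exact hg) h1
  -- the inverse coordinates
  have hκc : ContinuousAt (fun z => (G z₀ + p1 (κ z), p2 (κ z))) z₀ := by
    have c1 : Continuous fun v : Cm (a + m) => (G z₀ + p1 v, p2 v) := by
      have c2 : Continuous fun v : Cm (a + m) => p1 v := continuous_fst.comp (pe a m).continuous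
      have c3 : Continuous fun v : Cm (a + m) => p2 v := continuous_snd.comp (pe a m).continuous
      exact (continuous_const.add c2).prodMk c3
    exact c1.continuousAt.comp k1.continuousAt
  have hκ0 : (G z₀ + p1 (κ z₀), p2 (κ z₀)) = (G z₀, (0 : Cm m)) := by
    rw [k2]
    have e1 : p1 (0 : Cm (a + m)) = (0 : Cm a) := rfl
    have e2 : p2 (0 : Cm (a + m)) = (0 : Cm m) := rfl
    rw [e1, e2, add_zero]
  have hpκ : ∀ v : Cm (a + m), (pe a m).symm ((G z₀ + p1 v) - G z₀, p2 v) = v := by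
    intro v
    rw [add_sub_cancel_left]
    exact ap_p v
  have hggne : ¬ ∀ᶠ q in 𝓝 (G z₀, (0 : Cm m)), gg q = 0 := by
    intro hz
    refine hne ?_
    have t1 : Tendsto (fun z => (G z₀ + p1 (κ z), p2 (κ z))) (𝓝 z₀)
        (𝓝 (G z₀, (0 : Cm m))) := by
      have := hκc.tendsto
      rwa [hκ0] at this
    filter_upwards [t1.eventually hz, k4] with z h1 h2
    have h3 : g (χ ((pe a m).symm ((G z₀ + p1 (κ z)) - G z₀, p2 (κ z)))) = 0 := h1
    rwa [hpκ, h2] at h3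
  obtain ⟨r, hr, -, hT⟩ := thin_prod hgga hggne
  -- the neighbourhood
  have t1 : Tendsto (fun z => (G z₀ + p1 (κ z), p2 (κ z))) (𝓝 z₀) (𝓝 (G z₀, (0 : Cm m))) := by
    have := hκc.tendsto
    rwa [hκ0] at this
  have t2 : Tendsto κ (𝓝 z₀) (𝓝 0) := by
    have := k1.continuousAt.tendsto
    rwa [k2] at this
  have hev : ∀ᶠ z in 𝓝 z₀, (G z₀ + p1 (κ z), p2 (κ z)) ∈ ball (G z₀, (0 : Cm m)) r ∧
      κ z ∈ ball (0 : Cm (a + m)) R ∧ χ (κ z) = z ∧ ∀ᶠ z' in 𝓝 z, z' ∈ C → g z' = 0 :=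
    (t1.eventually (ball_mem_nhds _ hr)).and ((t2.eventually (ball_mem_nhds _ hR)).and
      (k4.and (eventually_eventually_nhds.2 hC)))
  refine ⟨_, hev, hT.mono ?_⟩
  rintro t ⟨z, ⟨hzB, h1, h2, h3, h4⟩, rfl⟩
  have hGz : G z = G z₀ + p1 (κ z) := by
    rw [← (hχ _ h2).2.2.2, h3]
  rw [← ball_prod_same] at h1
  rw [hGz]
  refine ⟨h1.1, p2 (κ z), h1.2, ?_⟩
  -- the fibre near `z`
  have hc2 : ContinuousAt (fun y : Cm m => χ ((pe a m).symm ((G z₀ + p1 (κ z)) - G z₀, y)))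
      (p2 (κ z)) := by
    refine ContinuousAt.comp (g := χ)
      (f := fun y : Cm m => (pe a m).symm ((G z₀ + p1 (κ z)) - G z₀, y)) ?_ ?_
    · rw [hpκ]
      exact (hχ _ h2).1.continuousAt
    · exact ((pe a m).symm.continuous.comp (continuous_const.prodMk continuous_id)).continuousAt
  have t3 : Tendsto (fun y : Cm m => χ ((pe a m).symm ((G z₀ + p1 (κ z)) - G z₀, y)))
      (𝓝 (p2 (κ z))) (𝓝 z) := by
    have := hc2.tendsto
    rwa [hpκ, h3] at this
  have hc3 : ContinuousAt (fun y : Cm m => (pe a m).symm ((G z₀ + p1 (κ z)) - G z₀, y))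
      (p2 (κ z)) :=
    ((pe a m).symm.continuous.comp (continuous_const.prodMk continuous_id)).continuousAt
  have t4 : ∀ᶠ y in 𝓝 (p2 (κ z)), (pe a m).symm ((G z₀ + p1 (κ z)) - G z₀, y) ∈
      ball (0 : Cm (a + m)) R := by
    refine hc3.eventually (isOpen_ball.mem_nhds ?_)
    show (pe a m).symm ((G z₀ + p1 (κ z)) - G z₀, p2 (κ z)) ∈ _
    rw [hpκ]
    exact h2
  filter_upwards [t3.eventually hzB, t3.eventually h4, t4] with y b1 b2 b3
  refine b2 (b1 ?_)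
  rw [(hχ _ b3).2.2.2, hGz]
  congr 1
  have : p1 (ap ((G z₀ + p1 (κ z)) - G z₀) y) = (G z₀ + p1 (κ z)) - G z₀ := p1_ap _ _
  rw [add_sub_cancel_left] at this ⊢
  exact this

/-- **On an open subset of the ball.** -/
theorem sl_ball {G : Cm (a + m) → Cm a} {C : Set (Cm (a + m))}
    (hG : ∀ z ∈ ball (0 : Cm (a + m)) 3, AnalyticAt ℂ G z)
    (hC : ∀ z ∈ ball (0 : Cm (a + m)) 3, ∃ g : Cm (a + m) → ℂ, AnalyticAt ℂ g z ∧
      (¬ ∀ᶠ w in 𝓝 z, g w = 0) ∧ ∀ᶠ w in 𝓝 z, w ∈ C → g w = 0) :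
    SThin (Cm a) (G '' (Bp G C ∩ {z | z ∈ ball (0 : Cm (a + m)) 3 ∧
      Function.Surjective (fderiv ℂ G z)})) := by
  refine SThin.image_of_local fun z hz => ?_
  obtain ⟨g, h1, h2, h3⟩ := hC z hz.2.1
  obtain ⟨N, hN, hS⟩ := sl_local hz.2.1 (hG z hz.2.1) hz.2.2 h1 h2 h3
  exact ⟨N, hN, hS.mono (image_mono fun w hw => ⟨hw.1.1, hw.2⟩)⟩

end Vale.Agent.P281.H125.RC
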