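import Vale.Agent.P281.H150.Gen.SThin

/-!
# P281, project RADC (helper125), G-CONN: slices of hypersurfaces of a product
-/

open Set Filter Metric Vale.Agent.P281 Vale.Agent.P281.J Vale.Agent.P281.H713
open Vale.Agent.P281.H64.Thin (IsThinSet)
open Vale.Agent.P281.H64 (Cm)
open Vale.Agent.P281.H150.Gen
open scoped Topology ContDiff Manifold

noncomputable section

namespace Vale.Agent.P281.H125.RC

variable {a m : ℕ}

/-- The zeros of an analytic function, in a smaller ball. -/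
theorem thin_zero {f : Cm a → ℂ} {t₀ t₁ : Cm a} {r : ℝ} (hr : 0 < r)
    (hf : ∀ t ∈ ball t₀ (2 * r), AnalyticAt ℂ f t) (ht₁ : t₁ ∈ ball t₀ (2 * r)) (h1 : f t₁ ≠ 0) :
    IsThinSet (Cm a) {t : Cm a | t ∈ closedBall t₀ r ∧ f t = 0} := by
  have hsub : closedBall t₀ r ⊆ ball t₀ (2 * r) := closedBall_subset_ball (by linarith)
  have hc : ContinuousOn f (closedBall t₀ r) := fun t ht =>
    (hf t (hsub ht)).continuousAt.continuousWithinAt
  have hcl : IsClosed {t : Cm a | t ∈ closedBall t₀ r ∧ f t = 0} :=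
    hc.preimage_isClosed_of_isClosed isClosed_closedBall isClosed_singleton
  refine thin_of_isClosed hcl fun t ht => ⟨f, holAt_of_analyticAt (hf t (hsub ht.1)), ?_,
    Eventually.of_forall fun _ h => h.2⟩
  intro hz
  have h2 : AnalyticOnNhd ℂ f (ball t₀ (2 * r)) := hf
  have h3 := h2.eqOn_zero_of_preconnected_of_eventuallyEq_zero (convex_ball _ _).isPreconnected
    (hsub ht.1) hz
  exact h1 (h3 ht₁)

/-- **The slices `t` on which `g` vanishes somewhere identically are in a thin set.** -/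
theorem thin_prod {g : Cm a × Cm m → ℂ} {q₀ : Cm a × Cm m} (hg : AnalyticAt ℂ g q₀)
    (hne : ¬ ∀ᶠ q in 𝓝 q₀, g q = 0) :
    ∃ r > 0, (∀ q ∈ ball q₀ r, AnalyticAt ℂ g q) ∧ SThin (Cm a)
      {t : Cm a | t ∈ ball q₀.1 r ∧ ∃ y ∈ ball q₀.2 r, ∀ᶠ y' in 𝓝 y, g (t, y') = 0} := by
  obtain ⟨R, hR, hball⟩ := Metric.eventually_nhds_iff_ball.1 hg.eventually_analyticAt
  have hr : 0 < R / 2 := by positivity
  have hb : ∀ q : Cm a × Cm m, q ∈ ball q₀ R ↔ q.1 ∈ ball q₀.1 R ∧ q.2 ∈ ball q₀.2 R := by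
    intro q
    rw [← ball_prod_same]
    exact Iff.rfl
  have h2 : ∃ q ∈ ball q₀ (R / 2), g q ≠ 0 := by
    by_contra hc
    push Not at hc
    exact hne (Metric.eventually_nhds_iff_ball.2 ⟨R / 2, hr, hc⟩)
  obtain ⟨q₁, hq₁, hg₁⟩ := h2
  have hq₁' := (hb q₁).1 (ball_subset_ball (by linarith) hq₁)
  have hR2 : 2 * (R / 2) = R := by ring
  refine ⟨R / 2, hr, fun q hq => hball q (ball_subset_ball (by linarith) hq), ?_⟩
  have h3 : ∀ t ∈ ball q₀.1 (2 * (R / 2)), AnalyticAt ℂ (fun t => g (t, q₁.2)) t := by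
    intro t ht
    rw [hR2] at ht
    exact AnalyticAt.fun_comp (g := g) (f := fun t : Cm a => (t, q₁.2))
      (hball (t, q₁.2) ((hb _).2 ⟨ht, hq₁'.2⟩)) (analyticAt_id.prod analyticAt_const)
  refine SThin.of_thin (thin_zero hr h3 (t₁ := q₁.1) (by rw [hR2]; exact hq₁'.1) hg₁) ?_
  rintro t ⟨ht, y, hy, hev⟩
  refine ⟨ball_subset_closedBall ht, ?_⟩
  have ht' : t ∈ ball q₀.1 R := ball_subset_ball (by linarith) ht
  have h4 : AnalyticOnNhd ℂ (fun y => g (t, y)) (ball q₀.2 R) := fun y hy =>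
    AnalyticAt.fun_comp (g := g) (f := fun y : Cm m => (t, y))
      (hball (t, y) ((hb _).2 ⟨ht', hy⟩)) (analyticAt_const.prod analyticAt_id)
  exact h4.eqOn_zero_of_preconnected_of_eventuallyEq_zero (convex_ball _ _).isPreconnected
    (ball_subset_ball (by linarith) hy) hev hq₁'.2

end Vale.Agent.P281.H125.RC
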